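import Crest.Agent.X262.St91.Defs

/-!
# X262 / Nc60 (helper60): no pencil of points, injectivity of the projections on a plane

* `Hy.np`     : the surface contains no line;
* `Hy.inj_pi` : the two projections are injective on the plane of a conic.
-/

set_option autoImplicit false

open Module Function

noncomputable section

namespace Crest.Agent.X262.Nc60

open Crest.Agent.X262.St91

variable {om : Fin 6 → I2 → ℂ} {P P' : I2 → ℂ}

/-- skew vectors killed by the forms -/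
def InW (om : Fin 6 → I2 → ℂ) (P : I2 → ℂ) : Prop :=
  (∀ i j, P (i, j) = -P (j, i)) ∧ ln om P = 0

/-- the Plücker relations -/
def Plk (P : I2 → ℂ) : Prop :=
  ∀ i j k l, P (i, j) * P (k, l) - P (i, k) * P (j, l) + P (i, l) * P (j, k) = 0

/-- `ln` as a linear map -/
def lnL {ι κ : Type} [Fintype κ] (π : ι → κ → ℂ) : (κ → ℂ) →ₗ[ℂ] ι → ℂ where
  toFun := ln π
  map_add' x y := by
    ext i
    simp [ln, mul_add, Finset.sum_add_distrib]
  map_smul' c x := by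
    ext i
    simp [ln, Finset.mul_sum, mul_left_comm c]

theorem lnL_apply {ι κ : Type} [Fintype κ] (π : ι → κ → ℂ) (x : κ → ℂ) : lnL π x = ln π x := rfl

theorem ln_comb {ι κ : Type} [Fintype κ] (π : ι → κ → ℂ) (s t : ℂ) (x y : κ → ℂ) :
    ln π (s • x + t • y) = s • ln π x + t • ln π y := by
  rw [← lnL_apply, map_add, map_smul, map_smul]
  rfl

theorem InW.comb (h : InW om P) (h' : InW om P') (s t : ℂ) : InW om (s • P + t • P') :=
  ⟨fun i j => by
    simp only [Pi.add_apply, Pi.smul_apply, smul_eq_mul]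
    rw [h.1 i j, h'.1 i j]
    ring, by rw [ln_comb, h.2, h'.2, smul_zero, smul_zero, add_zero]⟩

theorem InW.onS (h : InW om P) (h0 : P ≠ 0) (hq : Plk P) : OnS om P := ⟨h0, h.1, hq, h.2⟩

section par

variable {ι : Type} {x y : ι → ℂ}

theorem par_symm (h : Par x y) : Par y x := fun i j => by linear_combination h j i

theorem par_iff (hx : x ≠ 0) : Par x y ↔ ∃ c : ℂ, y = c • x := by
  refine ⟨fun h => ?_, ?_⟩
  · obtain ⟨i, hi⟩ := Function.ne_iff.1 hx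
    refine ⟨y i / x i, funext fun j => ?_⟩
    rw [Pi.smul_apply, smul_eq_mul, div_mul_eq_mul_div, eq_div_iff hi, mul_comm, h i j, mul_comm]
  · rintro ⟨c, rfl⟩ i j
    simp only [Pi.smul_apply, smul_eq_mul]
    ring

theorem par_of_comb {s t s' t' : ℂ} (h : Par (s • x + t • y) (s' • x + t' • y))
    (hd : s * t' - t * s' ≠ 0) : Par x y := fun i j => by
  have h1 := h i j
  simp only [Pi.add_apply, Pi.smul_apply, smul_eq_mul] at h1
  exact mul_left_cancel₀ hd (by linear_combination h1)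

theorem par_of_zero {s t : ℂ} (h : s • x + t • y = 0) (h0 : s ≠ 0 ∨ t ≠ 0) : Par x y :=
  fun i j => by
    have h1 := congrFun h i
    have h2 := congrFun h j
    simp only [Pi.add_apply, Pi.smul_apply, smul_eq_mul, Pi.zero_apply] at h1 h2
    rcases h0 with h0 | h0
    · exact mul_left_cancel₀ h0 (by linear_combination y j * h1 - y i * h2)
    · exact mul_left_cancel₀ h0 (by linear_combination x i * h2 - x j * h1)

end par

theorem eval_zero_Γ (M : QM om) : MvPolynomial.eval (0 : Fin 4 → ℂ) M.Γ = 0 := by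
  rw [MvPolynomial.eval_zero, MvPolynomial.constantCoeff_eq]
  exact M.qt.1.coeff_eq_zero (by simp)

theorem eval_ln (M : QM om) (h : InW om P) (hq : Plk P) :
    MvPolynomial.eval (ln M.π P) M.Γ = 0 := by
  by_cases h0 : P = 0
  · rw [h0, ← lnL_apply, map_zero, eval_zero_Γ]
  · exact M.on P (h.onS h0 hq)

/-- two points with the same image -/
theorem par_of_eq (M : QM om) (h : InW om P) (hq : Plk P) (h' : InW om P') (hq' : Plk P')
    (h0 : ln M.π P ≠ 0) (e : ln M.π P' = ln M.π P) : Par P P' := by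
  have h1 : ∀ R, ln M.π R ≠ 0 → R ≠ 0 := fun R hR e => hR (by rw [e, ← lnL_apply, map_zero])
  have o := h.onS (h1 _ h0) hq
  have o' := h'.onS (h1 _ (e ▸ h0)) hq'
  exact M.uP _ _ _ h0 o o' (M.rel _ o) (e ▸ M.rel _ o')

theorem np_one (M : QM om) (hP : InW om P) (hP' : InW om P')
    (hq : ∀ s t : ℂ, Plk (s • P + t • P')) (hn : ¬ Par P P') : ln M.π P = 0 := by
  by_contra h0
  obtain ⟨c, hc⟩ := (par_iff h0).1 (M.nl _ (ln M.π P') fun s t => by
    rw [← ln_comb]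
    exact eval_ln M (hP.comb hP' s t) (hq s t))
  refine hn (par_of_comb (s := 1) (t := 0) (s' := 1 - c) (t' := 1) (par_of_eq M (hP.comb hP' _ _)
    (hq _ _) (hP.comb hP' _ _) (hq _ _) ?_ ?_) (by simp))
  · simpa using h0
  · rw [ln_comb, ln_comb, hc]
    module

/-- the part of the third datum which is used here -/
structure Hy (G : Geo om) (e : Fin 2 → I2 → ℂ) : Prop where
  eM : ∀ P : I2 → ℂ, OnS om P → ln G.M.π P = 0 → ∀ k, ln e P k = 0 → ln G.N.π P = 0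
  eN : ∀ P : I2 → ℂ, OnS om P → ln G.N.π P = 0 → ∀ k, ln e P k = 0 → ln G.M.π P = 0
  inj : ∀ P : I2 → ℂ, InW om P → ln G.M.π P = 0 → ln G.N.π P = 0 → ln e P = 0 → P = 0
  two : ∀ P : I2 → ℂ, OnS om P → ln G.M.π P = 0 → ln G.N.π P = 0 → ln e P 0 * ln e P 1 = 0

theorem exists_root (a b : ℂ) : ∃ s t : ℂ, (s ≠ 0 ∨ t ≠ 0) ∧ s * a + t * b = 0 := by
  by_cases h : a = 0
  · exact ⟨1, 0, .inl one_ne_zero, by simp [h]⟩
  · exact ⟨b, -a, .inr (neg_ne_zero.2 h), by ring⟩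

variable {G : Geo om} {e : Fin 2 → I2 → ℂ}

/-- **no pencil** -/
theorem Hy.np (h : Hy G e) (hP : InW om P) (hP' : InW om P')
    (hq : ∀ s t : ℂ, Plk (s • P + t • P')) : Par P P' := by
  by_contra hn
  have h1 : ∀ (M : QM om) (s t : ℂ), ln M.π (s • P + t • P') = 0 := fun M s t => by
    rw [ln_comb, np_one M hP hP' hq hn, np_one M hP' hP (fun s t => add_comm (t • P) _ ▸ hq t s)
      fun h => hn (par_symm h), smul_zero, smul_zero, add_zero]
  have h2 : ∀ s t : ℂ, (s ≠ 0 ∨ t ≠ 0) → ln e (s • P + t • P') ≠ 0 := fun s t h0 h3 =>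
    hn (par_of_zero (h.inj _ (hP.comb hP' s t) (h1 _ s t) (h1 _ s t) h3) h0)
  obtain ⟨s, t, h3, h4⟩ := exists_root (ln e P 0) (ln e P' 0)
  obtain ⟨s', t', h5, h6⟩ := exists_root (ln e P 1) (ln e P' 1)
  have h7 : s * ln e P 1 + t * ln e P' 1 ≠ 0 := fun h7 => h2 s t h3 (by
    rw [ln_comb]
    funext k
    fin_cases k
    exacts [h4, h7])
  have h8 : s' * ln e P 0 + t' * ln e P' 0 ≠ 0 := fun h8 => h2 s' t' h5 (by
    rw [ln_comb]
    funext k
    fin_cases k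
    exacts [h8, h6])
  have e0 : ln e ((s + s') • P + (t + t') • P') 0 = s' * ln e P 0 + t' * ln e P' 0 := by
    rw [ln_comb]
    simp only [Pi.add_apply, Pi.smul_apply, smul_eq_mul]
    linear_combination h4
  have e1 : ln e ((s + s') • P + (t + t') • P') 1 = s * ln e P 1 + t * ln e P' 1 := by
    rw [ln_comb]
    simp only [Pi.add_apply, Pi.smul_apply, smul_eq_mul]
    linear_combination h6
  have h9 := h.two _ ((hP.comb hP' (s + s') (t + t')).onS (fun h0 => h8 (by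
    rw [← e0, h0, ← lnL_apply, map_zero]; rfl)) (hq _ _)) (h1 _ _ _) (h1 _ _ _)
  rw [e0, e1] at h9
  exact mul_ne_zero h8 h7 h9

section plane

variable {V : Type*} [AddCommGroup V] [Module ℂ V] [FiniteDimensional ℂ V]
  {B : V →ₗ[ℂ] V →ₗ[ℂ] ℂ} {ξ : V →ₗ[ℂ] I2 → ℂ}

theorem exists_ker (hV : 3 ≤ finrank ℂ V) (f g : V →ₗ[ℂ] ℂ) : ∃ y, y ≠ 0 ∧ f y = 0 ∧ g y = 0 := by
  obtain ⟨y, h1, h2⟩ := (Submodule.ne_bot_iff _).1 (LinearMap.ker_ne_bot_of_finrank_lt
    (f := f.prod g) (by rw [finrank_prod, finrank_self]; omega))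
  exact ⟨y, h2, congrArg Prod.fst h1, congrArg Prod.snd h1⟩

theorem exists_two' (hV : 3 ≤ finrank ℂ V) (f : V →ₗ[ℂ] ℂ) : ∃ y y', f y = 0 ∧ f y' = 0 ∧
    ∀ s t : ℂ, s • y + t • y' = 0 → s = 0 ∧ t = 0 := by
  obtain ⟨y, h1, h2, -⟩ := exists_ker hV f f
  obtain ⟨g, hg⟩ := Module.Projective.exists_dual_ne_zero ℂ h1
  obtain ⟨y', h3, h4, h5⟩ := exists_ker hV f g
  refine ⟨y, y', h2, h4, fun s t h => ?_⟩
  have h6 := congrArg g h
  rw [map_add, map_smul, map_smul, h5, smul_zero, add_zero, map_zero, smul_eq_zero,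
    or_iff_left hg] at h6
  rw [h6, zero_smul, zero_add, smul_eq_zero, or_iff_left h3] at h
  exact ⟨h6, h⟩

theorem exists_two (hV : 3 ≤ finrank ℂ V) (f : V →ₗ[ℂ] ℂ) :
    ∃ y y', f y = 0 ∧ f y' = 0 ∧ LinearIndependent ℂ ![y, y'] :=
  let ⟨y, y', h1, h2, h3⟩ := exists_two' hV f
  ⟨y, y', h1, h2, LinearIndependent.pair_iff.2 h3⟩

omit [FiniteDimensional ℂ V] in
theorem B_comb (hs : ∀ x y, B x y = B y x) (s t : ℂ) (x y : V) :
    B (s • x + t • y) (s • x + t • y) = s ^ 2 * B x x + 2 * s * t * B x y + t ^ 2 * B y y := by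
  simp only [map_add, map_smul, LinearMap.add_apply, LinearMap.smul_apply, smul_eq_mul, hs y x]
  ring

theorem exists_quad {a : ℂ} (ha : a ≠ 0) (b c : ℂ) : ∃ t : ℂ, a * t ^ 2 + b * t + c = 0 := by
  obtain ⟨r, hr⟩ := IsAlgClosed.exists_pow_nat_eq (b ^ 2 - 4 * a * c) two_pos
  refine ⟨(-b + r) / (2 * a), ?_⟩
  field_simp
  linear_combination hr

theorem exists_iso (hV : 3 ≤ finrank ℂ V) (hs : ∀ x y, B x y = B y x) (f : V →ₗ[ℂ] ℂ) :
    ∃ y, y ≠ 0 ∧ f y = 0 ∧ B y y = 0 := by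
  obtain ⟨y, y', h1, h2, h3⟩ := exists_two' hV f
  by_cases h : B y' y' = 0
  · exact ⟨y', fun h0 => one_ne_zero (h3 0 1 (by simp [h0])).2, h2, h⟩
  obtain ⟨t, ht⟩ := exists_quad h (2 * B y y') (B y y)
  refine ⟨(1 : ℂ) • y + t • y', fun h0 => one_ne_zero (h3 1 t h0).1, by simp [h1, h2], ?_⟩
  rw [B_comb hs]
  linear_combination ht

/-- the hypotheses on the plane -/
structure Pn (om : Fin 6 → I2 → ℂ) (ξ : V →ₗ[ℂ] I2 → ℂ) (B : V →ₗ[ℂ] V →ₗ[ℂ] ℂ) : Prop where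
  dim : 3 ≤ finrank ℂ V
  inj : Injective ξ
  inW : ∀ y, InW om (ξ y)
  sym : ∀ x y, B x y = B y x
  plk : ∀ y, B y y = 0 → Plk (ξ y)
  np : ∀ x y, (∀ s t : ℂ, B (s • x + t • y) (s • x + t • y) = 0) → Par (ξ x) (ξ y)

namespace Pn

variable (h : Pn om ξ B)

include h

omit [FiniteDimensional ℂ V] in
theorem ne {y : V} (hy : y ≠ 0) : ξ y ≠ 0 := fun h0 => hy (h.inj (by rw [h0, map_zero]))

omit [FiniteDimensional ℂ V] in
theorem dep {x y : V} (hx : x ≠ 0) (hp : Par (ξ x) (ξ y)) : ∃ c : ℂ, y = c • x :=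
  let ⟨c, hc⟩ := (par_iff (h.ne hx)).1 hp
  ⟨c, h.inj (by rw [hc, map_smul])⟩

theorem exists_ani (f : V →ₗ[ℂ] ℂ) : ∃ y, f y = 0 ∧ B y y ≠ 0 := by
  by_contra! hc
  obtain ⟨y, y', h1, h2, h3⟩ := exists_two' h.dim f
  obtain ⟨c, hc⟩ := h.dep (x := y) (fun h0 => one_ne_zero (h3 1 0 (by simp [h0])).1)
    (h.np y y' fun s t => hc _ (by simp [h1, h2]))
  exact one_ne_zero (neg_eq_zero.1 (h3 c (-1) (by simp [hc])).2)

theorem ani (M : QM om) {ζ : V} (h1 : B ζ ζ ≠ 0) (h2 : ln M.π (ξ ζ) = 0) (x : V) :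
    ln M.π (ξ x) = 0 := by
  by_contra hx
  have key : ∀ x, B x ζ = 0 → B x x ≠ 0 → ln M.π (ξ x) = 0 := fun x h3 h4 => by
    by_contra h5
    obtain ⟨t, ht⟩ := exists_quad h1 0 (B x x)
    have h6 : t ≠ 0 := by
      rintro rfl
      exact h4 (by simpa using ht)
    have h7 : ∀ t : ℂ, ln M.π (ξ ((1 : ℂ) • x + t • ζ)) = ln M.π (ξ x) := fun t => by
      rw [map_add, map_smul, map_smul, ln_comb, h2, smul_zero, add_zero, one_smul]
    have h8 := par_of_eq M (h.inW ((1 : ℂ) • x + t • ζ)) (h.plk _ (by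
      rw [B_comb h.sym, h3]; linear_combination ht)) (h.inW ((1 : ℂ) • x + (-t) • ζ))
      (h.plk _ (by rw [B_comb h.sym, h3]; linear_combination ht)) (by rwa [h7]) (by rw [h7, h7])
    simp only [map_add, map_smul] at h8
    obtain ⟨c, rfl⟩ := h.dep (x := ζ) (fun h0 => h1 (by simp [h0])) (par_symm (par_of_comb h8 (by
      rw [one_mul, mul_one, ← neg_add', neg_ne_zero, ← two_mul]; exact mul_ne_zero two_ne_zero h6)))
    exact h5 (by rw [map_smul, ← lnL_apply, map_smul, lnL_apply, h2, smul_zero])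
  obtain ⟨y, h3, h4⟩ := h.exists_ani (B ζ)
  rw [h.sym] at h3
  obtain ⟨x', h5, h6⟩ : ∃ x', B x' ζ = 0 ∧ ln M.π (ξ x') = ln M.π (ξ x) :=
    ⟨(1 : ℂ) • x + (-(B x ζ / B ζ ζ)) • ζ, by
      simp only [map_add, map_smul, LinearMap.add_apply, LinearMap.smul_apply, smul_eq_mul]
      field_simp
      ring, by rw [map_add, map_smul, map_smul, ln_comb, h2, smul_zero, add_zero, one_smul]⟩
  obtain ⟨t, ht⟩ := exists_quad h4 (2 * B x' y) (B x' x' - 1)
  refine hx ?_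
  have h7 := key ((1 : ℂ) • x' + t • y) (by simp [h3, h5]) (by
    rw [B_comb h.sym]
    intro h0
    exact one_ne_zero (by linear_combination h0 - ht : (1 : ℂ) = 0))
  rwa [map_add, map_smul, map_smul, ln_comb, key y h3 h4, smul_zero, add_zero, one_smul, h6] at h7

theorem zero (M : QM om) {ζ : V} (h0 : ζ ≠ 0) (h2 : ln M.π (ξ ζ) = 0) (x : V) :
    ln M.π (ξ x) = 0 := by
  by_cases h1 : B ζ ζ = 0
  swap
  · exact h.ani M h1 h2 x
  by_contra hx
  obtain ⟨x0, h3⟩ : ∃ x0, B x0 ζ ≠ 0 := by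
    by_contra! hc
    obtain ⟨g, hg⟩ := Module.Projective.exists_dual_ne_zero ℂ h0
    obtain ⟨y, y1, y2, y3⟩ := exists_iso h.dim h.sym g
    obtain ⟨c, rfl⟩ := h.dep h0 (h.np ζ y fun s t => by
      rw [B_comb h.sym, h1, y3, h.sym, hc]; simp)
    rw [map_smul, smul_eq_zero, or_iff_left hg] at y2
    exact y1 (by rw [y2, zero_smul])
  have h4 : ∀ y, B y ζ ≠ 0 → MvPolynomial.eval (ln M.π (ξ y)) M.Γ = 0 := fun y hy => by
    have h5 := eval_ln M (h.inW ((1 : ℂ) • y + (-(B y y / (2 * B y ζ))) • ζ)) (h.plk _ (by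
      rw [B_comb h.sym, h1]
      field_simp
      ring))
    rwa [map_add, map_smul, map_smul, ln_comb, h2, smul_zero, add_zero, one_smul] at h5
  have h5 : ∀ y, MvPolynomial.eval (ln M.π (ξ y)) M.Γ = 0 := fun y => by
    have h6 : (fun t : ℂ => MvPolynomial.eval ((1 : ℂ) • ln M.π (ξ y) + t • ln M.π (ξ x0)) M.Γ) =
        fun _ => 0 := by
      refine Continuous.ext_on (dense_compl_singleton (-(B y ζ / B x0 ζ)))
        ((MvPolynomial.continuous_eval _).comp (by fun_prop)) continuous_const fun t ht => ?_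
      have h7 := h4 ((1 : ℂ) • y + t • x0) fun h7 => ht (by
        simp only [map_add, map_smul, LinearMap.add_apply, LinearMap.smul_apply, smul_eq_mul,
          one_mul] at h7
        rw [Set.mem_singleton_iff]
        field_simp
        linear_combination h7)
      rwa [map_add, map_smul, map_smul, ln_comb] at h7
    simpa using congrFun h6 0
  obtain ⟨i, hi⟩ := Function.ne_iff.1 hx
  obtain ⟨y, y1, y2⟩ := h.exists_ani (LinearMap.proj i ∘ₗ lnL M.π ∘ₗ ξ)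
  obtain ⟨c, hc⟩ := (par_iff hx).1 (M.nl _ (ln M.π (ξ y)) fun s t => by
    rw [← ln_comb, ← map_smul, ← map_smul, ← map_add]
    exact h5 _)
  have y3 : ln M.π (ξ y) i = 0 := y1
  rw [hc, Pi.smul_apply, smul_eq_zero, or_iff_left (show _ ≠ (0 : ℂ) from hi)] at y3
  exact hx (h.ani M y2 (by rw [hc, y3, zero_smul]) x)

end Pn

omit [FiniteDimensional ℂ V] in
theorem Hy.pn (h : Hy G e) (hV : 3 ≤ finrank ℂ V) (hi : Injective ξ) (hW : ∀ y, InW om (ξ y))
    (hs : ∀ x y, B x y = B y x) (hQ : ∀ y, B y y = 0 → Plk (ξ y)) : Pn om ξ B :=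
  ⟨hV, hi, hW, hs, hQ, fun x y h1 => h.np (hW x) (hW y) fun s t => by
    rw [← map_smul, ← map_smul, ← map_add]
    exact hQ _ (h1 s t)⟩

/-- **the projections are injective on the plane** -/
theorem Hy.inj_pi (h : Hy G e) (hV : 3 ≤ finrank ℂ V) (ξ : V →ₗ[ℂ] I2 → ℂ) (hi : Injective ξ)
    (hW : ∀ y, InW om (ξ y)) (B : V →ₗ[ℂ] V →ₗ[ℂ] ℂ) (hs : ∀ x y, B x y = B y x)
    (hQ : ∀ y, B y y = 0 → Plk (ξ y)) {y : V} (hy : y ≠ 0) :
    ln G.M.π (ξ y) ≠ 0 ∧ ln G.N.π (ξ y) ≠ 0 := by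
  have p := h.pn hV hi hW hs hQ
  have h1 : ¬ ((∀ x, ln G.M.π (ξ x) = 0) ∧ ∀ x, ln G.N.π (ξ x) = 0) := fun h1 => by
    obtain ⟨x, x1, x2, x3⟩ := exists_ker hV (LinearMap.proj 0 ∘ₗ lnL e ∘ₗ ξ)
      (LinearMap.proj 1 ∘ₗ lnL e ∘ₗ ξ)
    refine p.ne x1 (h.inj _ (hW x) (h1.1 x) (h1.2 x) (funext fun k => ?_))
    fin_cases k
    exacts [x2, x3]
  obtain ⟨x, x1, x2, x3⟩ := exists_iso hV hs (LinearMap.proj 0 ∘ₗ lnL e ∘ₗ ξ)
  have o := (hW x).onS (p.ne x1) (hQ x x3)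
  exact ⟨fun h2 => h1 ⟨p.zero G.M hy h2,
      p.zero G.N x1 (h.eM _ o (p.zero G.M hy h2 x) 0 x2)⟩,
    fun h2 => h1 ⟨p.zero G.M x1 (h.eN _ o (p.zero G.N hy h2 x) 0 x2), p.zero G.N hy h2⟩⟩

end plane

end Crest.Agent.X262.Nc60
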